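import Vale.Agent.P046R5.Main

set_option autoImplicit false

open Filter Asymptotics MeasureTheory Vale.Agent.P046R5

universe u

/-- Random triangle removal on `K_n`, as random variables `T n 0, T n 1, …` (the chosen triangles)
on a probability space. Such processes exist; for every family of them the process almost surely
removes triangles until none is left, and the number `F_n` of edges of the final graph, divided by
`n^{3/2}`, converges to `1 / (2 √2)` in probability, in expectation and in quadratic mean. -/
theorem Vale.Agent.Results.P046.ARandomProcess.result :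
    -- the process exists for every `n`
    (∀ n : ℕ, ∃ (Ω : Type) (_ : MeasurableSpace Ω) (P : Measure Ω)
      (T : ℕ → Ω → Finset (Fin n)), IsProbabilityMeasure P ∧ IsRemoval P T) ∧
    -- for every realisation of the processes
    ∀ (Ω : ℕ → Type u) [∀ n, MeasurableSpace (Ω n)] (P : ∀ n, Measure (Ω n))
      [∀ n, IsProbabilityMeasure (P n)] (T : ∀ n, ℕ → Ω n → Finset (Fin n)),
      (∀ n, IsRemoval (P n) (T n)) →
      -- almost surely: the final graph has no triangle, every choice before the stopping time is
      -- a triangle of the current graph, and each step removes three edges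
      (∀ n, ∀ᵐ ω ∂P n,
        (graphAt (fun i => T n i ω) (stopTime fun i => T n i ω)).CliqueFree 3 ∧
        (∀ k < stopTime fun i => T n i ω,
          T n k ω ∈ (graphAt (fun i => T n i ω) k).cliqueSet 3) ∧
        finalEdges (fun i => T n i ω) + 3 * stopTime (fun i => T n i ω) = n.choose 2) ∧
      -- `F_n` is an integrable random variable
      (∀ n, (Measurable fun ω => finalEdges fun i => T n i ω) ∧
        Integrable (fun ω => (finalEdges fun i => T n i ω : ℝ)) (P n)) ∧
      -- convergence in probability
      (∀ ε : ℝ, 0 < ε → Tendsto (fun n : ℕ => P n {ω | ε ≤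
        |(finalEdges fun i => T n i ω : ℝ) / (n : ℝ) ^ (3 / 2 : ℝ) - 1 / (2 * √2)|})
        atTop (nhds 0)) ∧
      -- convergence of the expectation
      Tendsto (fun n : ℕ =>
        (∫ ω, (finalEdges fun i => T n i ω : ℝ) ∂P n) / (n : ℝ) ^ (3 / 2 : ℝ))
        atTop (nhds (1 / (2 * √2))) ∧
      -- the expectation has order `n^{3/2}`
      ((fun n : ℕ => ∫ ω, (finalEdges fun i => T n i ω : ℝ) ∂P n) =Θ[atTop]
        fun n : ℕ => (n : ℝ) ^ (3 / 2 : ℝ)) ∧
      -- convergence in quadratic mean
      (∀ n, Integrable (fun ω =>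
        ((finalEdges fun i => T n i ω : ℝ) / (n : ℝ) ^ (3 / 2 : ℝ) - 1 / (2 * √2)) ^ 2) (P n)) ∧
      Tendsto (fun n : ℕ => ∫ ω,
        ((finalEdges fun i => T n i ω : ℝ) / (n : ℝ) ^ (3 / 2 : ℝ) - 1 / (2 * √2)) ^ 2 ∂P n)
        atTop (nhds 0) :=
  ⟨exists_removal, fun _ _ _ _ _ hT => ⟨fun n => ae_path (hT n),
    fun n => ⟨meas_finalEdges (hT n).measurable, (integral_eq (hT n) fun m => (m : ℝ)).1⟩,
    prob_lim hT, mean_lim hT, mean_theta hT,
    fun n => (integral_eq (hT n) fun m =>
      ((m : ℝ) / (n : ℝ) ^ (3 / 2 : ℝ) - 1 / (2 * √2)) ^ 2).1,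
    sq_lim hT⟩⟩
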